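import Vale.Agent.P216.R2.H930.Circle

/-!
P216: the local cocycle with based chains; the holonomy of the orbits of a circle action is central.
-/

namespace Vale.Agent.P216.R2.H930

open Set unitInterval Topology

section Cocycle

variable {M : Type*} [MetricSpace M]

open Path.Homotopic.Quotient in
theorem conj_aux {x₀ a b : M} (κ : ∀ y, Path x₀ y) (ha : a = x₀) (hb : b = x₀)
    (p : Path x₀ x₀) (q : Path a b) (hq : q = p.cast ha hb) :
    (FundamentalGroup.fromPath (symm (mk (κ x₀))) : FundamentalGroup M x₀) *
      FundamentalGroup.fromPath (mk p) * (FundamentalGroup.fromPath (symm (mk (κ x₀))))⁻¹ =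
    FundamentalGroup.fromPath (((mk (κ a)).trans (mk q)).trans (symm (mk (κ b)))) := by
  subst ha
  subst hb
  rw [FundamentalGroup.mul_def, FundamentalGroup.mul_def, FundamentalGroup.inv_def, hq]
  simp only [FundamentalGroup.fromPath, FundamentalGroup.fromArrow, Path.cast_rfl_rfl,
    trans_assoc]
  congr 1
  simp only [← mk_symm, Path.symm_symm]

open Path.Homotopic.Quotient in
/-- The local cocycle with values in the fundamental group. -/
theorem exists_cocycle_based (hM : HasSegments M) {r₀ : ℝ} (hr₀ : 0 < r₀)
    (hS : SmallPathsHomotopic M r₀) (x₀ : M) :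
    ∃ (S : LocalCocycle M (FundamentalGroup M x₀)) (v : FundamentalGroup M x₀),
      ∀ g : FundamentalGroup M x₀, ∃ (n : ℕ) (x : ℕ → M), 0 < n ∧ x 0 = x₀ ∧ x n = x₀ ∧
        (∀ i < n, dist (x i) (x (i + 1)) < S.r / 2) ∧ S.P x n = v * g * v⁻¹ := by
  choose s hs using fun x y => hM.exists_path x y
  let κ : ∀ y, Path x₀ y := fun y => s x₀ y
  let sg : ∀ x y : M, Path.Homotopic.Quotient x y := fun x y => mk (s x y)
  have tri : ∀ x y z, dist x y < r₀ / 3 → dist y z < r₀ / 3 → dist x z < r₀ / 3 →
      (sg x y).trans (sg y z) = sg x z := by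
    intro x y z h1 h2 h3
    simp only [sg, ← mk_trans]
    rw [Path.Homotopic.Quotient.eq]
    apply hS x x z
    · intro t
      have : ((s x y).trans (s y z)) t ∈ range ((s x y).trans (s y z)) := mem_range_self t
      rw [Path.trans_range] at this
      rcases this with ⟨u, hu⟩ | ⟨u, hu⟩
      · rw [← hu]; linarith only [hs x y u, hr₀, h1, hs]
      · rw [← hu]
        have e1 := hs y z u
        have e2 := dist_triangle (s y z u) y x
        rw [dist_comm y x] at e2
        linarith only [hr₀, h1, h2, e1, e2]
    · intro t; linarith only [hs x z t, hr₀, h3, hs]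
  let S : LocalCocycle M (FundamentalGroup M x₀) :=
    { r := r₀ / 3
      r_pos := by positivity
      coc := fun x y => FundamentalGroup.fromPath
        (((mk (κ y)).trans (sg y x)).trans (symm (mk (κ x))))
      mul' := by
        intro x y z h1 h2 h3
        have e1 := tri z y x (by rwa [dist_comm]) (by rwa [dist_comm]) (by rwa [dist_comm])
        rw [FundamentalGroup.mul_def]
        simp only [FundamentalGroup.fromPath, FundamentalGroup.fromArrow]
        rw [← e1]
        simp only [trans_assoc]
        congr 2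
        rw [← trans_assoc (symm (mk (κ y))), symm_trans, refl_trans] }
  refine ⟨S, FundamentalGroup.fromPath (symm (mk (κ x₀))), fun g => ?_⟩
  obtain ⟨p, hp⟩ := Path.Homotopic.Quotient.mk_surjective g
  -- uniform continuity
  have huc : UniformContinuous p := CompactSpace.uniformContinuous_of_continuous p.continuous
  obtain ⟨η, hη, hp2⟩ := Metric.uniformContinuous_iff.1 huc (r₀ / 6) (by positivity)
  obtain ⟨n, hn⟩ := exists_nat_gt (1 / η)
  have hn0 : (0 : ℝ) < n := lt_trans (by positivity) hn
  have hn1 : 0 < n := by exact_mod_cast hn0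
  -- the subdivision, run backwards
  let u : ℕ → I := fun i => Set.projIcc 0 1 zero_le_one (1 - (i : ℝ) / n)
  have hu : ∀ i, i ≤ n → (u i : ℝ) = 1 - i / n := by
    intro i hi
    have h1 : (i : ℝ) / n ≤ 1 := by
      rw [div_le_one hn0]; exact_mod_cast hi
    have h2 : 0 ≤ (i : ℝ) / n := by positivity
    simp only [u]
    rw [Set.projIcc_of_mem zero_le_one (x := 1 - (i : ℝ) / n) ⟨by linarith only [h1], by linarith only [h2]⟩]
  have hu0 : u 0 = 1 := by
    ext; rw [hu 0 (by omega)]; simp
  have hun : u n = 0 := by
    ext; rw [hu n le_rfl, div_self hn0.ne']; simp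
  have hstep : ∀ i < n, ∀ a b : I, (u (i + 1) : ℝ) ≤ a → (a : ℝ) ≤ u i → (u (i + 1) : ℝ) ≤ b →
      (b : ℝ) ≤ u i → dist (p a) (p b) < r₀ / 6 := by
    intro i hi a b h1 h2 h3 h4
    apply hp2
    rw [Subtype.dist_eq, Real.dist_eq, abs_lt]
    rw [hu i (by omega)] at h2 h4
    rw [hu (i + 1) (by omega)] at h1 h3
    have h5 : (1 : ℝ) / n < η := by
      rw [div_lt_iff₀ hn0]
      rw [div_lt_iff₀ hη] at hn
      linarith only [hn]
    push_cast at h1 h3
    have h6 : ((i : ℝ) + 1) / n = i / n + 1 / n := by ring
    rw [h6] at h1 h3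
    constructor <;> linarith only [h4, h5, h1, h2, h3]
  let x : ℕ → M := fun i => p (u i)
  have hmono : ∀ i < n, (u (i + 1) : ℝ) ≤ u i := by
    intro i hi
    rw [hu i (by omega), hu (i + 1) (by omega)]
    push_cast
    have : (i : ℝ) / n ≤ ((i : ℝ) + 1) / n := by gcongr; linarith only []
    linarith only [this]
  have hx : ∀ i < n, dist (x i) (x (i + 1)) < r₀ / 6 := fun i hi =>
    hstep i hi _ _ (hmono i hi) le_rfl le_rfl (hmono i hi)
  have hx0 : x 0 = x₀ := by simp only [x, hu0, p.target]
  have hxn : x n = x₀ := by simp only [x, hun, p.source]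
  -- small subpaths are homotopic to segments
  have hseg : ∀ i < n, mk (p.subpath (u (i + 1)) (u i)) = sg (x (i + 1)) (x i) := by
    intro i hi
    rw [Path.Homotopic.Quotient.eq]
    apply hS (x (i + 1))
    · intro t
      have hr : (p.subpath (u (i + 1)) (u i)) t ∈ range (p.subpath (u (i + 1)) (u i)) :=
        mem_range_self t
      rw [Path.range_subpath_of_le _ _ _ (hmono i hi)] at hr
      obtain ⟨a, ha, hat⟩ := hr
      rw [← hat]
      have := hstep i hi a (u (i + 1)) ha.1 ha.2 le_rfl (hmono i hi)
      simp only [x]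
      linarith only [hr₀, this]
    · intro t
      have h1 := hs (x (i + 1)) (x i) t
      have h2 := hx i hi
      rw [dist_comm] at h2
      linarith only [hr₀, h1, h2]
  have key : ∀ k ≤ n, S.P x k = FundamentalGroup.fromPath
      (((mk (κ (x k))).trans (mk (p.subpath (u k) (u 0)))).trans (symm (mk (κ (x 0))))) := by
    intro k hk
    induction k with
    | zero =>
      rw [S.P_zero, Path.subpath_self, mk_refl, FundamentalGroup.one_def]
      simp only [FundamentalGroup.fromPath, FundamentalGroup.fromArrow]
      rw [trans_refl, trans_symm]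
    | succ k ih =>
      rw [S.P_succ, ih (by omega)]
      have e1 : mk (p.subpath (u (k + 1)) (u 0)) =
          (sg (x (k + 1)) (x k)).trans (mk (p.subpath (u k) (u 0))) := by
        rw [← hseg k (by omega), ← mk_trans, Path.Homotopic.Quotient.eq]
        exact ⟨(Path.Homotopy.subpathTransSubpath p _ _ _).symm⟩
      rw [FundamentalGroup.mul_def, e1]
      simp only [FundamentalGroup.fromPath, FundamentalGroup.fromArrow, S]
      simp only [trans_assoc]
      congr 2
      rw [← trans_assoc (symm (mk (κ (x k)))), symm_trans, refl_trans]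
  refine ⟨n, x, hn1, hx0, hxn, ?_, ?_⟩
  · intro i hi
    have := hx i hi
    have hr : S.r = r₀ / 3 := rfl
    rw [hr]; linarith only [this]
  · rw [key n le_rfl, ← hp]
    symm
    apply conj_aux κ hxn hx0 p
    ext t
    rw [Path.cast_coe]
    change p (Set.Icc.convexComb (u n) (u 0) t) = p t
    rw [hun, hu0]
    congr 1
    ext
    simp

end Cocycle

end Vale.Agent.P216.R2.H930
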